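import Vale.Agent.P100.Diag.Min

/-!
P100: the Lane–Emden system has no positive entire solution when `pq ≤ 1`.
-/

open Filter Topology Set Metric
open scoped Laplacian

namespace Vale.Agent.P100.Diag

open Vale.Agent.P100.Sys Vale.Agent.P100.Cmp
open Vale.Agent.P100.Wt (rw' rw'_eq)

variable {n : ℕ} {w : EuclideanSpace ℝ (Fin n) → ℝ}

/-- A positive superharmonic function decays at most like the fundamental solution. -/
theorem outer_lower (hn : 3 ≤ n) (hw : Continuous w) (hw0 : ∀ y, 0 < w y)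
    (hw2 : ∀ y ≠ 0, ContDiffAt ℝ 2 w y) (hlap : ∀ y ≠ 0, lap w y < 0) {a R : ℝ} (ha : 0 ≤ a)
    (hR : 0 < R) (hin : ∀ y, ‖y‖ = R → a ≤ w y) {x : EuclideanSpace ℝ (Fin n)} (hx : R ≤ ‖x‖) :
    a * (‖x‖ / R) ^ (2 - (n : ℝ)) ≤ w x := by
  have hs : 0 < (n : ℝ) - 2 := by
    have : (3 : ℝ) ≤ n := by exact_mod_cast hn
    linarith
  set b : ℝ := a * R ^ ((n : ℝ) - 2) with hb
  have hb0 : 0 ≤ b := by positivity
  have hbR : b * R ^ (2 - (n : ℝ)) = a := by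
    rw [hb, mul_assoc, ← Real.rpow_add hR,
      show (n : ℝ) - 2 + (2 - (n : ℝ)) = 0 by ring, Real.rpow_zero, mul_one]
  have key : ∀ L : ℝ, ‖x‖ ≤ L → -(b * L ^ (2 - (n : ℝ))) ≤ bar w 0 b x := by
    intro L hL
    have hL0 : 0 ≤ b * L ^ (2 - (n : ℝ)) :=
      mul_nonneg hb0 (Real.rpow_nonneg ((norm_nonneg x).trans hL) _)
    refine bar_min hR hw hw2 (fun y hy _ => ?_) (fun y hy => ?_) (fun y hy => ?_) hx hL
    · rw [mul_zero]
      exact hlap y (norm_pos_iff.1 (hR.trans hy))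
    · simp only [bar, rw'_eq, hy, hbR]
      linarith [hin y hy]
    · simp only [bar, rw'_eq, hy]
      linarith [(hw0 y).le]
  have hlim : Tendsto (fun L : ℝ => -(b * L ^ (2 - (n : ℝ)))) atTop (𝓝 0) := by
    have := tendsto_rpow_neg_atTop hs
    simp only [neg_sub] at this
    simpa using (this.const_mul b).neg
  have h := le_of_tendsto hlim (eventually_atTop.2 ⟨‖x‖, key⟩)
  have e : a * (‖x‖ / R) ^ (2 - (n : ℝ)) = b * ‖x‖ ^ (2 - (n : ℝ)) := by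
    rw [Real.div_rpow (norm_nonneg _) hR.le]
    conv_lhs => rw [← hbR]
    field_simp [(Real.rpow_pos_of_pos hR (2 - (n : ℝ))).ne']
  simp only [bar, rw'_eq] at h
  linarith

/-- A nonnegative supersolution of `-Δw ≥ κ` on a ball is quadratically large inside. -/
theorem inner_lower (hn : 3 ≤ n) (hw : Continuous w) (hw0 : ∀ y, 0 < w y)
    (hw2 : ∀ y ≠ 0, ContDiffAt ℝ 2 w y) {κ R : ℝ} (hκ : 0 < κ) (hR : 0 < R)
    (hlap : ∀ y ≠ 0, ‖y‖ ≤ R → lap w y ≤ -κ) {x : EuclideanSpace ℝ (Fin n)} (hx : ‖x‖ ≤ R) :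
    κ / (4 * n) * (R ^ 2 - ‖x‖ ^ 2) ≤ w x := by
  have hn3 : (3 : ℝ) ≤ n := by exact_mod_cast hn
  set a : ℝ := κ / (4 * n) with ha
  have ha0 : 0 < a := div_pos hκ (by linarith)
  have han : a * (4 * n) = κ := div_mul_cancel₀ _ (by positivity)
  have hne : Nonempty (Fin n) := ⟨⟨0, by omega⟩⟩
  have key : ∀ y ≠ 0, ‖y‖ ≤ R → a * (R ^ 2 - ‖y‖ ^ 2) ≤ w y := by
    intro y hy hyR
    have hlim : ∀ ε > 0, a * (R ^ 2 - ‖y‖ ^ 2) - ε * ‖y‖ ^ (2 - (n : ℝ)) ≤ w y := by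
      intro ε hε
      have ht : Tendsto (fun r : ℝ => ε * r ^ (2 - (n : ℝ))) (𝓝[>] 0) atTop :=
        (tendsto_rpow_neg_nhdsGT_zero (by linarith)).const_mul_atTop hε
      obtain ⟨r, ⟨h1, h2⟩, hr : 0 < r⟩ := ((ht.eventually_ge_atTop (a * R ^ 2)).and
        (nhdsWithin_le_nhds (eventually_le_nhds (norm_pos_iff.2 hy)))).and
          self_mem_nhdsWithin |>.exists
      have h := bar_min (a := -a) (b := -ε) (m := a * R ^ 2) hr hw hw2
        (fun z hz hzR => ?_) (fun z hz => ?_) (fun z hz => ?_) h2 hyR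
      · simp only [bar, rw'_eq] at h
        linarith
      · have := hlap z (norm_pos_iff.1 (hr.trans hz)) hzR.le
        nlinarith
      · simp only [bar, rw'_eq, hz]
        nlinarith [hw0 z, sq_nonneg r, ha0]
      · simp only [bar, rw'_eq, hz]
        have := Real.rpow_nonneg hR.le (2 - (n : ℝ))
        nlinarith [hw0 z]
    refine le_of_tendsto (f := fun ε : ℝ => a * (R ^ 2 - ‖y‖ ^ 2) - ε * ‖y‖ ^ (2 - (n : ℝ)))
      (x := 𝓝[>] (0 : ℝ)) ?_ (eventually_mem_nhdsWithin.mono hlim)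
    refine Tendsto.mono_left ?_ nhdsWithin_le_nhds
    exact (by fun_prop : Continuous fun ε : ℝ =>
      a * (R ^ 2 - ‖y‖ ^ 2) - ε * ‖y‖ ^ (2 - (n : ℝ))).tendsto' 0 _ (by simp)
  by_cases hx0 : x = 0
  · subst hx0
    refine le_of_tendsto_of_tendsto (b := 𝓝[≠] (0 : EuclideanSpace ℝ (Fin n)))
      (f := fun y => a * (R ^ 2 - ‖y‖ ^ 2))
      (((by fun_prop : Continuous fun y : EuclideanSpace ℝ (Fin n) =>
        a * (R ^ 2 - ‖y‖ ^ 2)).tendsto 0).mono_left nhdsWithin_le_nhds)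
      ((hw.tendsto 0).mono_left nhdsWithin_le_nhds) ?_
    filter_upwards [eventually_mem_nhdsWithin, nhdsWithin_le_nhds (closedBall_mem_nhds
      (0 : EuclideanSpace ℝ (Fin n)) hR)] with y hy hyR
    exact key y hy (mem_closedBall_zero_iff.1 hyR)
  · exact key x hx0 hx

/-- One half of the iteration: a lower bound for `v` on a ball gives one for `u`. -/
theorem transfer (hn : 3 ≤ n) {u v : EuclideanSpace ℝ (Fin n) → ℝ} {p : ℝ} (hp : 0 < p)
    (hu : Continuous u) (hu0 : ∀ y, 0 < u y) (hu2 : ∀ y ≠ 0, ContDiffAt ℝ 2 u y)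
    (heq : ∀ y ≠ 0, lap u y = -(v y ^ p)) (hv : Continuous v) (hv0 : ∀ y, 0 < v y)
    (hv2 : ∀ y ≠ 0, ContDiffAt ℝ 2 v y) (hlv : ∀ y ≠ 0, lap v y < 0) {b R : ℝ} (hb : 0 < b)
    (hR : 0 < R) (hbv : ∀ y, ‖y‖ ≤ R → b ≤ v y) {x : EuclideanSpace ℝ (Fin n)} (hx : ‖x‖ ≤ R) :
    ((2 : ℝ) ^ (2 - (n : ℝ))) ^ p / (4 * n) * (b ^ p * R ^ 2) ≤ u x := by
  have hn3 : (3 : ℝ) ≤ n := by exact_mod_cast hn
  set c : ℝ := 2 ^ (2 - (n : ℝ)) with hc
  have hc0 : 0 < c := Real.rpow_pos_of_pos two_pos _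
  have hc1 : c ≤ 1 := Real.rpow_le_one_of_one_le_of_nonpos one_le_two (by linarith)
  have hcb : ∀ y, ‖y‖ ≤ 2 * R → c * b ≤ v y := by
    intro y hy
    rcases le_total ‖y‖ R with h | h
    · exact (mul_le_of_le_one_left hb.le hc1).trans (hbv y h)
    · refine le_trans ?_ (outer_lower hn hv hv0 hv2 hlv hb.le hR (fun z hz => hbv z hz.le) h)
      rw [mul_comm c b]
      refine mul_le_mul_of_nonneg_left (Real.rpow_le_rpow_of_nonpos ?_ ?_ (by linarith)) hb.le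
      · exact div_pos (hR.trans_le h) hR
      · rwa [div_le_iff₀ hR]
  have h := inner_lower hn hu hu0 hu2 (κ := (c * b) ^ p) (R := 2 * R)
    (Real.rpow_pos_of_pos (mul_pos hc0 hb) p) (by linarith)
    (fun y hy hyR => by
      rw [heq y hy]
      exact neg_le_neg (Real.rpow_le_rpow (mul_pos hc0 hb).le (hcb y hyR) hp.le))
    (show ‖x‖ ≤ 2 * R by linarith)
  refine le_trans ?_ h
  rw [Real.mul_rpow hc0.le hb.le]
  have : R ^ 2 ≤ (2 * R) ^ 2 - ‖x‖ ^ 2 := by nlinarith [norm_nonneg x]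
  calc c ^ p / (4 * n) * (b ^ p * R ^ 2) = c ^ p * b ^ p / (4 * n) * R ^ 2 := by ring
    _ ≤ _ := mul_le_mul_of_nonneg_left this (by positivity)

/-- No positive entire solution of the Lane–Emden system when `pq ≤ 1`. -/
theorem no_solution_sublinear (hn : 3 ≤ n) {p q : ℝ} (hp : 0 < p) (hq : 0 < q)
    (hpq : p * q ≤ 1) :
    ¬ ∃ u v : EuclideanSpace ℝ (Fin n) → ℝ, Continuous u ∧ Continuous v ∧
      (∀ x, 0 < u x ∧ 0 < v x) ∧
      ∀ x ≠ 0, ContDiffAt ℝ 2 u x ∧ ContDiffAt ℝ 2 v x ∧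
        -Δ u x = v x ^ p ∧ -Δ v x = u x ^ q := by
  rintro ⟨u, v, hu, hv, hpos, h⟩
  have hu2 : ∀ y ≠ 0, ContDiffAt ℝ 2 u y := fun y hy => (h y hy).1
  have hv2 : ∀ y ≠ 0, ContDiffAt ℝ 2 v y := fun y hy => (h y hy).2.1
  have eu : ∀ y ≠ 0, lap u y = -(v y ^ p) := fun y hy => by
    rw [← laplacian_eq_lap (hu2 y hy), ← (h y hy).2.2.1, neg_neg]
  have ev : ∀ y ≠ 0, lap v y = -(u y ^ q) := fun y hy => by
    rw [← laplacian_eq_lap (hv2 y hy), ← (h y hy).2.2.2, neg_neg]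
  have lu : ∀ y ≠ 0, lap u y < 0 := fun y hy => by
    rw [eu y hy, neg_lt_zero]; exact Real.rpow_pos_of_pos (hpos y).2 _
  have lv : ∀ y ≠ 0, lap v y < 0 := fun y hy => by
    rw [ev y hy, neg_lt_zero]; exact Real.rpow_pos_of_pos (hpos y).1 _
  set K₁ : ℝ := ((2 : ℝ) ^ (2 - (n : ℝ))) ^ p / (4 * n) with hK₁
  set K₂ : ℝ := ((2 : ℝ) ^ (2 - (n : ℝ))) ^ q / (4 * n) with hK₂
  have hn0 : 0 < (n : ℝ) := by exact_mod_cast (show 0 < n by omega)
  have hK₁0 : 0 < K₁ := by positivity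
  have hK₂0 : 0 < K₂ := by positivity
  set u₀ := u 0 with hu₀
  have hu₀0 : 0 < u₀ := (hpos 0).1
  set C : ℝ := u₀ ^ (1 - p * q) / (K₁ * K₂ ^ p) with hC
  set R : ℝ := max 1 (C + 1) with hR
  have hR1 : 1 ≤ R := le_max_left _ _
  have hR0 : 0 < R := by linarith
  have hball := (nonempty_closedBall (x := (0 : EuclideanSpace ℝ (Fin n)))).2 hR0.le
  obtain ⟨x₁, hx₁, hm₁⟩ :=
    (isCompact_closedBall 0 R).exists_isMinOn hball hu.continuousOn
  obtain ⟨x₂, hx₂, hm₂⟩ :=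
    (isCompact_closedBall 0 R).exists_isMinOn hball hv.continuousOn
  set a := u x₁
  set b := v x₂
  have ha : 0 < a := (hpos x₁).1
  have hb : 0 < b := (hpos x₂).2
  have hua : ∀ y, ‖y‖ ≤ R → a ≤ u y := fun y hy => hm₁ (mem_closedBall_zero_iff.2 hy)
  have hvb : ∀ y, ‖y‖ ≤ R → b ≤ v y := fun y hy => hm₂ (mem_closedBall_zero_iff.2 hy)
  have h1 : K₁ * (b ^ p * R ^ 2) ≤ a := transfer hn hp hu (fun y => (hpos y).1) hu2 eu hv
    (fun y => (hpos y).2) hv2 lv hb hR0 hvb (mem_closedBall_zero_iff.1 hx₁)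
  have h2 : K₂ * (a ^ q * R ^ 2) ≤ b := transfer hn hq hv (fun y => (hpos y).2) hv2 ev hu
    (fun y => (hpos y).1) hu2 lu ha hR0 hua (mem_closedBall_zero_iff.1 hx₂)
  have h3 : K₁ * K₂ ^ p * R ^ 2 * (R ^ 2) ^ p * a ^ (p * q) ≤ a := by
    refine le_trans ?_ h1
    have hpw := Real.rpow_le_rpow (by positivity) h2 hp.le
    rw [Real.mul_rpow hK₂0.le (by positivity), Real.mul_rpow (by positivity) (by positivity),
      ← Real.rpow_mul ha.le, mul_comm q p] at hpw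
    calc _ = K₁ * (K₂ ^ p * (a ^ (p * q) * (R ^ 2) ^ p) * R ^ 2) := by ring
      _ ≤ _ := mul_le_mul_of_nonneg_left (mul_le_mul_of_nonneg_right hpw (by positivity)) hK₁0.le
  have h4 : K₁ * K₂ ^ p * R ^ 2 * (R ^ 2) ^ p ≤ a ^ (1 - p * q) := by
    rw [Real.rpow_sub ha, Real.rpow_one, le_div_iff₀ (Real.rpow_pos_of_pos ha _)]
    exact h3
  have h5 : a ^ (1 - p * q) ≤ u₀ ^ (1 - p * q) :=
    Real.rpow_le_rpow ha.le (hua 0 (by simp [hR0.le])) (by linarith)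
  have hR2 : C + 1 ≤ R ^ 2 * (R ^ 2) ^ p := by
    have e1 : 1 ≤ (R ^ 2) ^ p := Real.one_le_rpow (one_le_pow₀ hR1) hp.le
    have e2 : C + 1 ≤ R := le_max_right _ _
    nlinarith
  have h6 : C * (K₁ * K₂ ^ p) = u₀ ^ (1 - p * q) := div_mul_cancel₀ _ (by positivity)
  have : 0 < K₁ * K₂ ^ p := by positivity
  nlinarith

end Vale.Agent.P100.Diag
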