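import Vale.Agent.P100.Cmp.Compare
import Vale.Agent.P100.Wt.Radial

/-!
P100: minimum principle for the Laplacian on annuli and the two barriers `|x|²`, `|x|^(2-n)`.
-/

open Filter Topology Set Metric

namespace Vale.Agent.P100.Diag

open Vale.Agent.P100.Sys Vale.Agent.P100.Cmp
open Vale.Agent.P100.Wt (rw' zc rw'_eq pd_rw' contDiffOn_rw' contDiffOn_zc sum_pd_zc pd_norm_sq)

variable {n : ℕ}

/-- The pure second derivatives are nonnegative at a local minimum. -/
theorem lap_nonneg_of_isLocalMin {f : EuclideanSpace ℝ (Fin n) → ℝ}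
    {x : EuclideanSpace ℝ (Fin n)} (hf : ContDiffAt ℝ 2 f x) (hmin : IsLocalMin f x) :
    0 ≤ lap f x := by
  refine Finset.sum_nonneg fun i _ => ?_
  set e : EuclideanSpace ℝ (Fin n) := EuclideanSpace.single i 1 with he
  set g : ℝ → ℝ := fun t => f (x + t • e) with hg
  have hline : ∀ t : ℝ, HasDerivAt (fun t : ℝ => x + t • e) e t := fun t => by
    simpa using ((hasDerivAt_id t).smul_const e).const_add x
  have hx0 : x + (0 : ℝ) • e = x := by simp
  have hT : Tendsto (fun t : ℝ => x + t • e) (𝓝 0) (𝓝 x) := by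
    have := (hline 0).continuousAt.tendsto; rwa [hx0] at this
  have hev : deriv g =ᶠ[𝓝 0] fun t => pd i f (x + t • e) := by
    filter_upwards [hT.eventually (hf.eventually (by simp))] with t ht
    exact ((ht.differentiableAt (by norm_num)).hasFDerivAt.comp_hasDerivAt t (hline t)).deriv
  have hd2 : HasDerivAt (deriv g) (pd i (pd i f) x) 0 := by
    refine HasDerivAt.congr_of_eventuallyEq ?_ hev
    exact HasFDerivAt.comp_hasDerivAt_of_eq 0 (differentiableAt_pd hf i).hasFDerivAt (hline 0)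
      hx0.symm
  have hgmin : IsLocalMin g 0 := by
    filter_upwards [hT.eventually hmin] with t ht
    simpa [hg] using ht
  by_contra hneg
  rw [not_le] at hneg
  have hgc : ContinuousAt g 0 := hf.continuousAt.comp_of_eq (hline 0).continuousAt hx0
  have hmax : IsLocalMax g 0 :=
    isLocalMax_of_deriv_deriv_neg (by rw [hd2.deriv]; exact hneg) hgmin.deriv_eq_zero hgc
  have hconst : g =ᶠ[𝓝 0] fun _ => g 0 := by
    filter_upwards [hgmin, hmax] with t h1 h2
    exact le_antisymm h2 h1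
  have h0 : deriv g =ᶠ[𝓝 0] fun _ => (0 : ℝ) :=
    hconst.deriv.trans (Eventually.of_forall fun t => deriv_const t _)
  have := h0.deriv_eq
  rw [hd2.deriv, deriv_const] at this
  exact hneg.ne this

theorem lap_norm_sq (x : EuclideanSpace ℝ (Fin n)) :
    lap (fun y : EuclideanSpace ℝ (Fin n) => ‖y‖ ^ 2) x = 2 * n := by
  have e2 : ∀ i : Fin n, pd i (pd i fun y : EuclideanSpace ℝ (Fin n) => ‖y‖ ^ 2) x = 2 := by
    intro i
    rw [pd_congr (Eventually.of_forall fun y => pd_norm_sq (x := y) i) i]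
    have h := (EuclideanSpace.proj (𝕜 := ℝ) i).hasFDerivAt (x := x) |>.const_mul (2 : ℝ)
    show fderiv ℝ (fun y : EuclideanSpace ℝ (Fin n) => 2 * y i) x _ = _
    rw [show fderiv ℝ (fun y : EuclideanSpace ℝ (Fin n) => 2 * y i) x = _ from h.fderiv]
    simp
  simp [lap, e2, mul_comm]

theorem lap_fundamental {x : EuclideanSpace ℝ (Fin n)} (hx : x ≠ 0) :
    lap (rw' (2 - (n : ℝ))) x = 0 := by
  set s : ℝ := 2 - (n : ℝ) with hs
  have hn : ({0}ᶜ : Set (EuclideanSpace ℝ (Fin n))) ∈ 𝓝 x := isOpen_compl_singleton.mem_nhds hx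
  have d1 : DifferentiableAt ℝ (rw' s) x :=
    ((contDiffOn_rw' (k := 1) s).contDiffAt hn).differentiableAt (by norm_num)
  have d2 : ∀ i, DifferentiableAt ℝ (zc (n := n) i) x := fun i =>
    ((contDiffOn_zc (k := 1) i).contDiffAt hn).differentiableAt (by norm_num)
  have e : ∀ i, pd i (pd i (rw' s)) x =
      s * rw' s x * (pd i (zc i) x + s * (zc i x * zc i x)) := fun i => by
    rw [pd_congr (eventually_of_mem hn fun y hy => pd_rw' s hy i) i,
      pd_mul (d1.const_mul s) (d2 i), pd_const_mul d1, pd_rw' s hx i]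
    ring
  simp only [lap, e, ← Finset.mul_sum, Finset.sum_add_distrib, sum_pd_zc hx]
  rw [hs]; ring

/-- The comparison function of both barriers. -/
noncomputable def bar (w : EuclideanSpace ℝ (Fin n) → ℝ) (a b : ℝ)
    (y : EuclideanSpace ℝ (Fin n)) : ℝ :=
  w y - a * ‖y‖ ^ 2 - b * rw' (2 - (n : ℝ)) y

/-- The minimum of `bar` on an annulus is attained on its boundary. -/
theorem bar_min {w : EuclideanSpace ℝ (Fin n) → ℝ} {a b r R m : ℝ} (hr : 0 < r)
    (hw : Continuous w) (hw2 : ∀ y ≠ 0, ContDiffAt ℝ 2 w y)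
    (hlap : ∀ y, r < ‖y‖ → ‖y‖ < R → lap w y < 2 * n * a)
    (hin : ∀ y, ‖y‖ = r → m ≤ bar w a b y) (hout : ∀ y, ‖y‖ = R → m ≤ bar w a b y)
    {x : EuclideanSpace ℝ (Fin n)} (hx1 : r ≤ ‖x‖) (hx2 : ‖x‖ ≤ R) : m ≤ bar w a b x := by
  set K : Set (EuclideanSpace ℝ (Fin n)) := closedBall 0 R \ ball 0 r with hK
  have hmemK : ∀ y, y ∈ K ↔ r ≤ ‖y‖ ∧ ‖y‖ ≤ R := fun y => by
    simp [hK, and_comm]
  have hne : ∀ y ∈ K, y ≠ 0 := fun y hy h => by
    have := ((hmemK y).1 hy).1
    rw [h, norm_zero] at this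
    linarith
  have hKc : IsCompact K := (isCompact_closedBall 0 R).diff isOpen_ball
  have hb : ContinuousOn (bar w a b) K :=
    ((hw.sub (continuous_const.mul (continuous_norm.pow 2))).continuousOn).sub
      (continuousOn_const.mul ((contDiffOn_rw' (k := 0) _).continuousOn.mono fun y hy => hne y hy))
  obtain ⟨y, hy, hy'⟩ := hKc.exists_isMinOn ⟨x, (hmemK x).2 ⟨hx1, hx2⟩⟩ hb
  refine le_trans ?_ (hy' ((hmemK x).2 ⟨hx1, hx2⟩))
  obtain ⟨h1, h2⟩ := (hmemK y).1 hy
  rcases eq_or_lt_of_le h1 with h1 | h1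
  · exact hin y h1.symm
  rcases eq_or_lt_of_le h2 with h2 | h2
  · exact hout y h2
  exfalso
  have hy0 := hne y hy
  have hnhds : K ∈ 𝓝 y := by
    refine mem_of_superset (((isOpen_lt continuous_const continuous_norm).inter
      (isOpen_lt continuous_norm continuous_const)).mem_nhds (show y ∈ {z | r < ‖z‖} ∩ {z | ‖z‖ < R}
        from ⟨h1, h2⟩)) fun z hz => (hmemK z).2 ⟨le_of_lt hz.1, le_of_lt hz.2⟩
  have hF : ContDiffAt ℝ 2 (fun z => w z - a * ‖z‖ ^ 2) y :=
    (hw2 y hy0).sub (contDiffAt_const.mul (contDiff_norm_sq ℝ).contDiffAt)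
  have hG : ContDiffAt ℝ 2 (rw' (2 - (n : ℝ))) y :=
    (contDiffOn_rw' _).contDiffAt (isOpen_compl_singleton.mem_nhds hy0)
  have hd : ContDiffAt ℝ 2 (bar w a b) y := hF.sub (contDiffAt_const.mul hG)
  have h := lap_nonneg_of_isLocalMin hd (hy'.isLocalMin hnhds)
  unfold bar at h
  rw [lap_sub_const_mul hF hG, lap_sub_const_mul (hw2 y hy0) (contDiff_norm_sq ℝ).contDiffAt,
    lap_norm_sq, lap_fundamental hy0] at h
  linarith [hlap y h1 h2]

end Vale.Agent.P100.Diag
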