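import Vale.Agent.P100.Cmp.Compare
import Vale.Agent.P100.Wt.Main

/-!
P100: equal exponents. The comparison makes a solution diagonal, and the quartic of the identity is
coercive on diagonal jets up to the Sobolev exponent.
-/

open Filter Topology Set
open scoped Laplacian

namespace Vale.Agent.P100.Diag

open Vale.Agent.P100.Wt (CoerciveIf jetS bulkS no_solution_of_coerciveIf)

/-- A binary quadratic form with positive discriminant condition is nonnegative. -/
theorem quad_form_nonneg {a b e : ℝ} (ha : 0 < a) (hd : b ^ 2 ≤ 4 * a * e) (X P : ℝ) :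
    0 ≤ a * X ^ 2 + b * (X * P) + e * P ^ 2 := by
  have h : 0 ≤ 4 * a * (a * X ^ 2 + b * (X * P) + e * P ^ 2) := by
    nlinarith [sq_nonneg (2 * a * X + b * P), mul_le_mul_of_nonneg_right hd (sq_nonneg P)]
  exact nonneg_of_mul_nonneg_right h (by linarith)

/-- The quartic is coercive on diagonal jets in the subcritical range. -/
theorem coerciveIf_diag {N p : ℝ} (hN : 3 ≤ N) (hp : 1 < p) (hsub : p * (N - 2) < N + 2) :
    ∃ c d : ℝ, CoerciveIf True N p p (2 - 2 * p / (N + 2)) c d 0 0 0 := by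
  obtain ⟨r, hr⟩ : ∃ r : ℝ, r = 2 * p / (N + 2) := ⟨_, rfl⟩
  rw [← hr]
  have hrp : r * (N + 2) = 2 * p := by rw [hr]; exact div_mul_cancel₀ _ (by linarith)
  have hr0 : 0 < r := by rw [hr]; exact div_pos (by linarith) (by linarith)
  have hr1 : (N - 2) * r < 2 := by
    rw [hr, mul_div_assoc', div_lt_iff₀ (by linarith)]
    linarith
  set μ : ℝ := 2 - r with hμ
  set k : ℝ := N * r - 2 with hk
  set c : ℝ := (N - 1) * r / 2 - 1 with hc
  set a₀ : ℝ := (N - 1) * r * (2 - (N - 2) * r) / 4 with ha₀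
  have ha₀0 : 0 < a₀ := by
    rw [ha₀]
    have : 0 < (N - 1) * r := mul_pos (by linarith) hr0
    nlinarith
  set ε : ℝ := a₀ / ((p - r) ^ 2 + 1) with hε
  have hε0 : 0 < ε := by positivity
  set d : ℝ := ε - 1 / N with hd
  set a : ℝ → ℝ := fun γ => c * (1 - μ) + (1 - γ + k / 2) ^ 2 / ((1 - γ) * N) -
    k ^ 2 / (4 * (1 - γ)) - γ with ha
  set b : ℝ → ℝ := fun γ => 1 - p + c + d * (2 - p - μ) + 2 * (1 - γ + k / 2) / N - 2 * γ with hb
  set e : ℝ → ℝ := fun γ => d + (1 - γ) / N - 2 * γ with he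
  have a0 : a 0 = a₀ := by
    simp only [ha, hμ, hk, hc, ha₀]; field_simp; ring
  have b0 : b 0 = ε * (r - p) := by
    simp only [hb, hμ, hk, hc, hd]; field_simp; linear_combination (N - 1) * hrp
  have e0 : e 0 = ε := by simp only [he, hd]; ring
  have hca : ContinuousAt a 0 := by
    refine ((continuousAt_const.add ((by fun_prop : ContinuousAt
      (fun γ : ℝ => (1 - γ + k / 2) ^ 2) 0).div (by fun_prop) ?_)).sub
      (continuousAt_const.div (by fun_prop) ?_)).sub continuousAt_id <;> norm_num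
    linarith
  have hev1 : ∀ᶠ γ in 𝓝 (0 : ℝ), 0 < a γ :=
    continuousAt_const.eventually_lt hca (by rw [a0]; exact ha₀0)
  have hev2 : ∀ᶠ γ in 𝓝 (0 : ℝ), b γ ^ 2 < 4 * a γ * e γ := by
    refine ((by fun_prop : ContinuousAt b 0).pow 2).eventually_lt
      ((continuousAt_const.mul hca).mul (by fun_prop)) ?_
    simp only [Pi.pow_apply, a0, b0, e0]
    have h1 : ε * ((p - r) ^ 2 + 1) = a₀ := div_mul_cancel₀ _ (by positivity)
    nlinarith [mul_pos hε0 hε0, mul_pos hε0 ha₀0]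
  obtain ⟨γ, ⟨⟨hγa, hγd⟩, hγ1⟩, hγ0⟩ := ((((hev1.and hev2).and
    (eventually_lt_nhds (show (0 : ℝ) < 1 by norm_num))).filter_mono nhdsWithin_le_nhds).and
      (self_mem_nhdsWithin : ∀ᶠ γ in 𝓝[>] (0 : ℝ), γ ∈ Ioi 0)).exists
  refine ⟨c, d, γ, hγ0, fun F Q X Y Z P₁ P₂ hD _ _ _ _ _ htr => ?_⟩
  obtain ⟨hY, hZ', hP⟩ := hD trivial
  rw [hY, hZ', hP]
  have hg : 0 < 1 - γ := by linarith
  have hH := mul_le_mul_of_nonneg_left (htr (k / (1 - γ))) hg.le
  have e3 : (1 - γ) * ((X + P₁ + k / (1 - γ) / 2 * X) ^ 2 / N -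
      (k / (1 - γ)) ^ 2 / 4 * X ^ 2) =
      ((1 - γ + k / 2) ^ 2 / ((1 - γ) * N) - k ^ 2 / (4 * (1 - γ))) * X ^ 2 +
        2 * (1 - γ + k / 2) / N * (X * P₁) + (1 - γ) / N * P₁ ^ 2 := by
    field_simp; ring
  have e4 : (1 - γ) * (F + k / (1 - γ) * Q) = (1 - γ) * F + k * Q := by field_simp
  rw [e3, e4] at hH
  have hq := quad_form_nonneg hγa hγd.le X P₁
  have key : jetS p p μ c d 0 0 0 F Q X X X P₁ P₁ = F + k * Q + c * (1 - μ) * X ^ 2 +
      (1 - p + c + d * (2 - p - μ)) * (X * P₁) + d * P₁ ^ 2 := by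
    simp only [jetS, hμ, hk, hc]; ring
  simp only [ha, hb, he] at hq
  rw [key, bulkS]
  linarith

/-- No positive entire solution of the subcritical Lane–Emden system with equal exponents. -/
theorem no_solution_diag {n : ℕ} (hn : 5 ≤ n) {p : ℝ} (hp : 1 < p)
    (hsub : p * ((n : ℝ) - 2) < n + 2) :
    ¬ ∃ u v : EuclideanSpace ℝ (Fin n) → ℝ, Continuous u ∧ Continuous v ∧
      (∀ x, 0 < u x ∧ 0 < v x) ∧
      ∀ x ≠ 0, ContDiffAt ℝ 2 u x ∧ ContDiffAt ℝ 2 v x ∧
        -Δ u x = v x ^ p ∧ -Δ v x = u x ^ p := by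
  rintro ⟨u, v, hu, hv, hpos, h⟩
  have huv : u = v := by
    funext x
    have h1 := Cmp.comparison (by omega) hp (by linarith) le_rfl hu hv hpos h x
    have h2 := Cmp.comparison (by omega) hp (by linarith) le_rfl hv hu
      (fun y => ⟨(hpos y).2, (hpos y).1⟩)
      (fun y hy => ⟨(h y hy).2.1, (h y hy).1, (h y hy).2.2.2, (h y hy).2.2.1⟩) x
    exact (Real.rpow_left_inj (hpos x).1.le (hpos x).2.le (show p + 1 ≠ 0 by linarith)).1
      ((div_left_inj' (show p + 1 ≠ 0 by linarith)).1 (le_antisymm h2 h1))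
  have hn5 : (5 : ℝ) ≤ n := by exact_mod_cast hn
  obtain ⟨c, d, hc⟩ := coerciveIf_diag (N := (n : ℝ)) (by linarith) hp hsub
  have hN : 2 * ((n : ℝ) + 0) / (2 + 0) = n := by ring
  set r : ℝ := 2 * p / ((n : ℝ) + 2) with hr
  have hr1 : ((n : ℝ) - 2) * r < 2 := by
    rw [hr, mul_div_assoc', div_lt_iff₀ (by linarith)]; linarith
  have hr0 : 0 < r := by rw [hr]; exact div_pos (by linarith) (by linarith)
  have hσ : (n : ℝ) < 4 + (2 - r) * (2 * (p + 1) / (p * p - 1)) := by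
    have e : 2 * (p + 1) / (p * p - 1) = 2 / (p - 1) := by
      rw [div_eq_div_iff (by nlinarith) (by linarith)]; ring
    rw [e, mul_div_assoc']
    have hrr : r * ((n : ℝ) + 2) = 2 * p := div_mul_cancel₀ _ (by linarith)
    have : ((n : ℝ) - 4) < (2 - r) * 2 / (p - 1) := by
      rw [lt_div_iff₀ (by linarith)]
      nlinarith
    linarith
  exact no_solution_of_coerciveIf (A := 0) (p := p) (q := p) (μ := 2 - r) hn (by norm_num) le_rfl (by linarith) (by linarith)
    (by nlinarith) (show 0 ≤ 2 - r by nlinarith) (by rwa [hN]) (fun _ => rfl) (by rw [hN]; exact hc)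
    ⟨u, v, hu, hv, hpos, fun x hx => by simpa using h x hx, fun _ => huv⟩

end Vale.Agent.P100.Diag
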